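import Mathlib
import Crest.Prelude.Def_SPSPS

set_option autoImplicit false

open MvPolynomial

namespace Crest.Agent.Row327b

open Crest.ArithCircuit

section reindex

variable {K ι L B P S R L' B' P' S' R' : Type*} [CommSemiring K]

/-- transport of a circuit along equivalences of the index types -/
def reindex (C : SPSPS K ι L B P S R) (eL : L ≃ L') (eB : B ≃ B') (eP : P ≃ P') (eS : S ≃ S')
    (eR : R ≃ R') : SPSPS K ι L' B' P' S' R' where
  leaf l := C.leaf (eL.symm l)
  inB b := (C.inB (eB.symm b)).map eL.toEmbedding
  coefB b l := C.coefB (eB.symm b) (eL.symm l)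
  inP p := (C.inP (eP.symm p)).map eB
  inS s := (C.inS (eS.symm s)).map eP.toEmbedding
  coefS s p := C.coefS (eS.symm s) (eP.symm p)
  inR r := (C.inR (eR.symm r)).map eS
  inOut := C.inOut.map eR.toEmbedding
  coefOut r := C.coefOut (eR.symm r)

variable (C : SPSPS K ι L B P S R) (eL : L ≃ L') (eB : B ≃ B') (eP : P ≃ P') (eS : S ≃ S')
    (eR : R ≃ R')

theorem reindex_leafVal (l : L) : (reindex C eL eB eP eS eR).leafVal (eL l) = C.leafVal l := by
  simp [SPSPS.leafVal, reindex]

theorem reindex_valB (b : B) : (reindex C eL eB eP eS eR).valB (eB b) = C.valB b := by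
  simp only [SPSPS.valB]
  have : (reindex C eL eB eP eS eR).inB (eB b) = (C.inB b).map eL.toEmbedding := by
    simp [reindex]
  rw [this, Finset.sum_map]
  apply Finset.sum_congr rfl
  intro l _
  rw [Equiv.coe_toEmbedding, reindex_leafVal]
  simp [reindex]

theorem reindex_valP (p : P) : (reindex C eL eB eP eS eR).valP (eP p) = C.valP p := by
  simp only [SPSPS.valP]
  have : (reindex C eL eB eP eS eR).inP (eP p) = (C.inP p).map eB := by
    simp [reindex]
  rw [this, Multiset.map_map]
  congr 1
  apply Multiset.map_congr rfl
  intro b _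
  exact reindex_valB C eL eB eP eS eR b

theorem reindex_valS (s : S) : (reindex C eL eB eP eS eR).valS (eS s) = C.valS s := by
  simp only [SPSPS.valS]
  have : (reindex C eL eB eP eS eR).inS (eS s) = (C.inS s).map eP.toEmbedding := by
    simp [reindex]
  rw [this, Finset.sum_map]
  apply Finset.sum_congr rfl
  intro l _
  rw [Equiv.coe_toEmbedding, reindex_valP]
  simp [reindex]

theorem reindex_valR (r : R) : (reindex C eL eB eP eS eR).valR (eR r) = C.valR r := by
  simp only [SPSPS.valR]
  have : (reindex C eL eB eP eS eR).inR (eR r) = (C.inR r).map eS := by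
    simp [reindex]
  rw [this, Multiset.map_map]
  congr 1
  apply Multiset.map_congr rfl
  intro b _
  exact reindex_valS C eL eB eP eS eR b

theorem reindex_output : (reindex C eL eB eP eS eR).output = C.output := by
  simp only [SPSPS.output]
  have : (reindex C eL eB eP eS eR).inOut = C.inOut.map eR.toEmbedding := rfl
  rw [this, Finset.sum_map]
  apply Finset.sum_congr rfl
  intro l _
  rw [Equiv.coe_toEmbedding, reindex_valR]
  simp [reindex]

theorem reindex_leafDeg (l : L) : (reindex C eL eB eP eS eR).leafDeg (eL l) = C.leafDeg l := by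
  simp [SPSPS.leafDeg, reindex]

theorem reindex_degB (b : B) : (reindex C eL eB eP eS eR).degB (eB b) = C.degB b := by
  simp only [SPSPS.degB]
  have : (reindex C eL eB eP eS eR).inB (eB b) = (C.inB b).map eL.toEmbedding := by
    simp [reindex]
  rw [this, Finset.sup_map]
  apply Finset.sup_congr rfl
  intro l _
  exact reindex_leafDeg C eL eB eP eS eR l

theorem reindex_degP (p : P) : (reindex C eL eB eP eS eR).degP (eP p) = C.degP p := by
  simp only [SPSPS.degP]
  have : (reindex C eL eB eP eS eR).inP (eP p) = (C.inP p).map eB := by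
    simp [reindex]
  rw [this, Multiset.map_map]
  congr 1
  apply Multiset.map_congr rfl
  intro b _
  exact reindex_degB C eL eB eP eS eR b

theorem reindex_degS (s : S) : (reindex C eL eB eP eS eR).degS (eS s) = C.degS s := by
  simp only [SPSPS.degS]
  have : (reindex C eL eB eP eS eR).inS (eS s) = (C.inS s).map eP.toEmbedding := by
    simp [reindex]
  rw [this, Finset.sup_map]
  apply Finset.sup_congr rfl
  intro l _
  exact reindex_degP C eL eB eP eS eR l

theorem reindex_degR (r : R) : (reindex C eL eB eP eS eR).degR (eR r) = C.degR r := by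
  simp only [SPSPS.degR]
  have : (reindex C eL eB eP eS eR).inR (eR r) = (C.inR r).map eS := by
    simp [reindex]
  rw [this, Multiset.map_map]
  congr 1
  apply Multiset.map_congr rfl
  intro b _
  exact reindex_degS C eL eB eP eS eR b

theorem reindex_degOut : (reindex C eL eB eP eS eR).degOut = C.degOut := by
  simp only [SPSPS.degOut]
  have : (reindex C eL eB eP eS eR).inOut = C.inOut.map eR.toEmbedding := rfl
  rw [this, Finset.sup_map]
  apply Finset.sup_congr rfl
  intro l _
  exact reindex_degR C eL eB eP eS eR l

theorem reindex_isHomogeneous (h : C.IsHomogeneous) :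
    (reindex C eL eB eP eS eR).IsHomogeneous := by
  obtain ⟨h1, h2, h3⟩ := h
  refine ⟨?_, ?_, ?_⟩
  · intro b l hl
    obtain ⟨b, rfl⟩ := eB.surjective b
    have : (reindex C eL eB eP eS eR).inB (eB b) = (C.inB b).map eL.toEmbedding := by
      simp [reindex]
    rw [this, Finset.mem_map] at hl
    obtain ⟨l, hl, rfl⟩ := hl
    rw [Equiv.coe_toEmbedding, reindex_leafDeg, reindex_degB]
    exact h1 b l hl
  · intro b l hl
    obtain ⟨b, rfl⟩ := eS.surjective b
    have : (reindex C eL eB eP eS eR).inS (eS b) = (C.inS b).map eP.toEmbedding := by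
      simp [reindex]
    rw [this, Finset.mem_map] at hl
    obtain ⟨l, hl, rfl⟩ := hl
    rw [Equiv.coe_toEmbedding, reindex_degP, reindex_degS]
    exact h2 b l hl
  · intro l hl
    have : (reindex C eL eB eP eS eR).inOut = C.inOut.map eR.toEmbedding := rfl
    rw [this, Finset.mem_map] at hl
    obtain ⟨l, hl, rfl⟩ := hl
    rw [Equiv.coe_toEmbedding, reindex_degR, reindex_degOut]
    exact h3 l hl

end reindex

section paths

variable {A : Type*} [CommSemiring A] {m : ℕ}

/-- entry of a product of matrices as a sum over paths -/
theorem prod_entry (F : ℕ → Matrix (Fin m) (Fin m) A) (l : ℕ) (i j : Fin m) :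
    ((List.range l).map F).prod i j =
      ∑ w : Fin (l + 1) → Fin m,
        if w 0 = i ∧ w (Fin.last l) = j then ∏ s : Fin l, F s (w s.castSucc) (w s.succ) else 0 := by
  induction l generalizing j with
  | zero =>
    simp only [List.range_zero, List.map_nil, List.prod_nil, Finset.univ_eq_empty,
      Finset.prod_empty]
    rw [Matrix.one_apply]
    rw [← (Equiv.funUnique (Fin 1) (Fin m)).symm.sum_comp]
    simp only [Equiv.funUnique_symm_apply, uniqueElim_const, Fin.last_zero]
    rw [Finset.sum_ite]
    by_cases hij : i = j
    · subst hij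
      simp [Finset.filter_eq']
    · rw [if_neg hij]
      rw [Finset.sum_eq_zero, Finset.sum_eq_zero, add_zero]
      · intro x _; rfl
      · intro x hx
        rw [Finset.mem_filter] at hx
        exact absurd (hx.2.1.symm.trans hx.2.2) hij
  | succ l ih =>
    rw [List.range_succ, List.map_append, List.prod_append, List.map_singleton,
      List.prod_singleton, Matrix.mul_apply]
    rw [← (Fin.snocEquiv (fun _ : Fin (l + 2) => Fin m)).sum_comp, Fintype.sum_prod_type]
    rw [Finset.sum_comm]
    simp only [ih, Finset.sum_mul]
    rw [Finset.sum_comm]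
    apply Finset.sum_congr rfl
    intro w _
    simp only [Fin.snocEquiv_apply]
    have h0 : ∀ x : Fin m, (Fin.snoc w x : Fin (l + 2) → Fin m) 0 = w 0 := by
      intro x
      exact Fin.snoc_castSucc (α := fun _ : Fin (l + 2) => Fin m) x w 0
    have hl : ∀ x : Fin m, (Fin.snoc w x : Fin (l + 2) → Fin m) (Fin.last (l + 1)) = x := by
      intro x
      exact Fin.snoc_last _ _
    have hp : ∀ x : Fin m, ∏ s : Fin (l + 1), F s ((Fin.snoc w x : Fin (l + 2) → Fin m) s.castSucc)
        ((Fin.snoc w x : Fin (l + 2) → Fin m) s.succ) =
        (∏ s : Fin l, F s (w s.castSucc) (w s.succ)) * F l (w (Fin.last l)) x := by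
      intro x
      rw [Fin.prod_univ_castSucc]
      congr 1
      · apply Finset.prod_congr rfl
        intro s _
        have e1 : (Fin.snoc w x : Fin (l + 2) → Fin m) s.castSucc.castSucc = w s.castSucc :=
          Fin.snoc_castSucc _ _ _
        have e2 : (Fin.snoc w x : Fin (l + 2) → Fin m) s.castSucc.succ = w s.succ := by
          rw [Fin.succ_castSucc]
          exact Fin.snoc_castSucc _ _ _
        rw [e1, e2]
        rfl
      · have e1 : (Fin.snoc w x : Fin (l + 2) → Fin m) (Fin.last l).castSucc = w (Fin.last l) :=
          Fin.snoc_castSucc _ _ _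
        have e2 : (Fin.snoc w x : Fin (l + 2) → Fin m) (Fin.last l).succ = x := by
          rw [Fin.succ_last]
          exact Fin.snoc_last _ _
        rw [e1, e2]
        rfl
    simp only [h0, hl, hp]
    by_cases hw : w 0 = i
    · simp only [hw, true_and]
      simp only [ite_mul, zero_mul, Finset.sum_ite_eq, Finset.mem_univ, if_true, Finset.sum_ite_eq']
    · simp [hw]

end paths


section blocks

variable {A : Type*} [CommSemiring A] {m : ℕ}

theorem prod_blocks {M : Type*} [Monoid M] (F : ℕ → M) (t r : ℕ) :
    ((List.range (r * t)).map F).prod =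
      ((List.range r).map (fun g => ((List.range t).map (fun s => F (g * t + s))).prod)).prod := by
  induction r with
  | zero => simp
  | succ r ih =>
    rw [Nat.succ_mul, List.range_add, List.map_append, List.prod_append, ih, List.range_succ,
      List.map_append, List.prod_append, List.map_singleton, List.prod_singleton, List.map_map]
    rfl

theorem prod_pad {M : Type*} [Monoid M] (F : ℕ → M) (n N : ℕ) (hN : n ≤ N)
    (h : ∀ k, n ≤ k → F k = 1) :
    ((List.range N).map F).prod = ((List.range n).map F).prod := by
  induction N, hN using Nat.le_induction with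
  | base => rfl
  | succ N hN ih =>
    rw [List.range_succ, List.map_append, List.prod_append, ih, List.map_singleton,
      List.prod_singleton, h N hN, mul_one]

theorem prod_ofFn_eq {M : Type*} [Monoid M] (n : ℕ) (f : Fin n → M) (F : ℕ → M)
    (h : ∀ k : Fin n, F k = f k) : (List.ofFn f).prod = ((List.range n).map F).prod := by
  congr 1
  apply List.ext_getElem (by simp)
  intro i h1 h2
  simp only [List.length_ofFn] at h1
  simp [← h]

end blocks

end Crest.Agent.Row327b
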