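import Mathlib
import Crest.Prelude.Def_SPSPS
import Crest.Agent.Row327b.Circ

set_option autoImplicit false

open MvPolynomial

namespace Crest.Agent.Row327b

open Crest.ArithCircuit

section circuit

variable (K : Type*) [CommSemiring K] (n t r : ℕ) [NeZero n]

/-- the full top path -/
def topPath (w : Fin r → Fin n) : Fin (r + 2) → Fin n :=
  Fin.cons 0 (Fin.snoc w 0 : Fin (r + 1) → Fin n)

/-- the circuit, with `r + 1` blocks of length `t` -/
def immC : SPSPS K (Fin n × Fin n × Fin n) (Fin n × Fin n × Fin n) (Fin n × Fin n × Fin n)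
    (Fin (r + 1) × (Fin (t + 1) → Fin n)) (Fin (r + 1) × Fin n × Fin n) (Fin r → Fin n) where
  leaf v := Sum.inl v
  inB b := {b}
  coefB _ _ := 1
  inP p := (Finset.univ.filter (fun s : Fin t => p.1.1 * t + s.1 < n)).val.map
    (fun s => (Fin.ofNat n (p.1.1 * t + s.1), p.2 s.castSucc, p.2 s.succ))
  inS q := Finset.univ.filter (fun p => p.1 = q.1 ∧ (p.2 0 = q.2.1 ∧ p.2 (Fin.last t) = q.2.2) ∧
    ∀ s : Fin t, n ≤ p.1.1 * t + s.1 → p.2 s.castSucc = p.2 s.succ)
  coefS _ _ := 1
  inR w := (Finset.univ : Finset (Fin (r + 1))).val.map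
    (fun g => (g, topPath n r w g.castSucc, topPath n r w g.succ))
  inOut := Finset.univ
  coefOut _ := 1

/-- padded matrices -/
noncomputable def padM (k : ℕ) : Matrix (Fin n) (Fin n) (MvPolynomial (Fin n × Fin n × Fin n) K) :=
  if k < n then varMatrix K n (Fin.ofNat n k) else 1

theorem immC_valB (b : Fin n × Fin n × Fin n) : (immC K n t r).valB b = X b := by
  simp [SPSPS.valB, immC, SPSPS.leafVal]

theorem immC_valP (p : Fin (r + 1) × (Fin (t + 1) → Fin n)) :
    (immC K n t r).valP p = ∏ s ∈ Finset.univ.filter (fun s : Fin t => p.1.1 * t + s.1 < n),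
      X (Fin.ofNat n (p.1.1 * t + s.1), p.2 s.castSucc, p.2 s.succ) := by
  simp only [SPSPS.valP]
  have : (immC K n t r).inP p = (Finset.univ.filter (fun s : Fin t => p.1.1 * t + s.1 < n)).val.map
    (fun s => (Fin.ofNat n (p.1.1 * t + s.1), p.2 s.castSucc, p.2 s.succ)) := rfl
  rw [this, Multiset.map_map, Finset.prod]
  congr 1
  apply Multiset.map_congr rfl
  intro s _
  exact immC_valB K n t r _

theorem immC_valS (q : Fin (r + 1) × Fin n × Fin n) :
    (immC K n t r).valS q =
      ((List.range t).map (fun s => padM K n (q.1.1 * t + s))).prod q.2.1 q.2.2 := by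
  obtain ⟨g, i, j⟩ := q
  simp only [SPSPS.valS]
  have h1 : (immC K n t r).inS (g, i, j) = Finset.univ.filter (fun p => p.1 = g ∧
    (p.2 0 = i ∧ p.2 (Fin.last t) = j) ∧
    ∀ s : Fin t, n ≤ p.1.1 * t + s.1 → p.2 s.castSucc = p.2 s.succ) := rfl
  rw [h1, prod_entry, Finset.sum_filter, Fintype.sum_prod_type, Finset.sum_eq_single g]
  · apply Finset.sum_congr rfl
    intro w _
    simp only [true_and]
    by_cases hw : w 0 = i ∧ w (Fin.last t) = j
    · rw [if_pos hw]
      by_cases hw2 : ∀ s : Fin t, n ≤ g.1 * t + s.1 → w s.castSucc = w s.succ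
      · rw [if_pos ⟨hw, hw2⟩, immC_valP]
        have : (immC K n t r).coefS (g, i, j) (g, w) = 1 := rfl
        rw [this, one_smul, Finset.prod_filter]
        apply Finset.prod_congr rfl
        intro s _
        simp only [padM]
        by_cases hs : g.1 * t + s.1 < n
        · rw [if_pos hs, if_pos hs]
          rfl
        · rw [if_neg hs, if_neg hs, hw2 s (by omega), Matrix.one_apply_eq]
      · rw [if_neg (fun h => hw2 h.2)]
        push Not at hw2
        obtain ⟨s, hs, hne⟩ := hw2
        symm
        apply Finset.prod_eq_zero (Finset.mem_univ s)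
        simp only [padM]
        rw [if_neg (by omega), Matrix.one_apply_ne hne]
    · rw [if_neg hw, if_neg (fun h => hw h.1)]
  · intro g' _ hg'
    apply Finset.sum_eq_zero
    intro w _
    rw [if_neg (fun h => hg' h.1)]
  · intro h
    exact absurd (Finset.mem_univ g) h

theorem topPath_zero (w : Fin r → Fin n) : topPath n r w 0 = 0 := rfl

theorem topPath_last (w : Fin r → Fin n) : topPath n r w (Fin.last (r + 1)) = 0 := by
  unfold topPath
  rw [← Fin.succ_last, Fin.cons_succ, Fin.snoc_last]

theorem topPath_mid (w : Fin r → Fin n) (i : Fin r) : topPath n r w i.castSucc.succ = w i := by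
  unfold topPath
  rw [Fin.cons_succ]
  exact Fin.snoc_castSucc _ _ _

theorem topPath_surj (v : Fin (r + 2) → Fin n) (h0 : v 0 = 0) (hl : v (Fin.last (r + 1)) = 0) :
    topPath n r (fun i => v i.castSucc.succ) = v := by
  funext k
  refine Fin.cases ?_ (fun k => ?_) k
  · rw [topPath_zero, h0]
  · refine Fin.lastCases ?_ (fun k => ?_) k
    · rw [Fin.succ_last, topPath_last, hl]
    · rw [topPath_mid]

theorem immC_output (hn : n ≤ (r + 1) * t) :
    (immC K n t r).output = ((List.ofFn (varMatrix K n)).prod) 0 0 := by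
  rw [prod_ofFn_eq n (varMatrix K n) (padM K n) (by
    intro k
    simp only [padM]
    rw [if_pos k.isLt]
    congr 1
    exact Fin.ofNat_val_eq_self k),
    ← prod_pad (padM K n) n ((r + 1) * t) hn (by
      intro k hk
      simp only [padM]
      rw [if_neg (by omega)]), prod_blocks, prod_entry, ← Finset.sum_filter]
  simp only [SPSPS.output]
  have h1 : (immC K n t r).inOut = Finset.univ := rfl
  rw [h1]
  apply Finset.sum_bij' (fun w _ => topPath n r w) (fun v _ => fun i => v i.castSucc.succ)
  · intro w _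
    rw [Finset.mem_filter]
    exact ⟨Finset.mem_univ _, topPath_zero n r w, topPath_last n r w⟩
  · intro v _
    exact Finset.mem_univ _
  · intro w _
    funext i
    exact topPath_mid n r w i
  · intro v hv
    rw [Finset.mem_filter] at hv
    exact topPath_surj n r v hv.2.1 hv.2.2
  · intro w _
    have h2 : (immC K n t r).coefOut w = 1 := rfl
    rw [h2, one_smul]
    simp only [SPSPS.valR]
    have h3 : (immC K n t r).inR w = (Finset.univ : Finset (Fin (r + 1))).val.map
      (fun g => (g, topPath n r w g.castSucc, topPath n r w g.succ)) := rfl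
    rw [h3, Multiset.map_map, Finset.prod]
    congr 1
    apply Multiset.map_congr rfl
    intro g _
    exact immC_valS K n t r _

/-- degree of a block -/
def blockDeg (g : ℕ) : ℕ := (Finset.univ.filter (fun s : Fin t => g * t + s.1 < n)).card

theorem immC_degB (b : Fin n × Fin n × Fin n) : (immC K n t r).degB b = 1 := by
  simp [SPSPS.degB, immC, SPSPS.leafDeg]

theorem immC_degP (p : Fin (r + 1) × (Fin (t + 1) → Fin n)) :
    (immC K n t r).degP p = blockDeg n t p.1.1 := by
  simp only [SPSPS.degP]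
  have : (immC K n t r).inP p = (Finset.univ.filter (fun s : Fin t => p.1.1 * t + s.1 < n)).val.map
    (fun s => (Fin.ofNat n (p.1.1 * t + s.1), p.2 s.castSucc, p.2 s.succ)) := rfl
  rw [this, Multiset.map_map]
  have h2 : ((Finset.univ.filter (fun s : Fin t => p.1.1 * t + s.1 < n)).val.map
      ((immC K n t r).degB ∘ fun s => (Fin.ofNat n (p.1.1 * t + s.1), p.2 s.castSucc, p.2 s.succ))) =
      (Finset.univ.filter (fun s : Fin t => p.1.1 * t + s.1 < n)).val.map (fun _ => 1) := by
    apply Multiset.map_congr rfl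
    intro s _
    exact immC_degB K n t r _
  rw [h2]
  simp [blockDeg]
  rfl

theorem immC_inS_nonempty (hgt : ∀ g ≤ r, g * t < n) (ht : 0 < t)
    (q : Fin (r + 1) × Fin n × Fin n) : ((immC K n t r).inS q).Nonempty := by
  obtain ⟨g, i, j⟩ := q
  have h1 : (immC K n t r).inS (g, i, j) = Finset.univ.filter (fun p => p.1 = g ∧
    (p.2 0 = i ∧ p.2 (Fin.last t) = j) ∧
    ∀ s : Fin t, n ≤ p.1.1 * t + s.1 → p.2 s.castSucc = p.2 s.succ) := rfl
  rw [h1]
  refine ⟨(g, fun k => if k = 0 then i else j), ?_⟩
  rw [Finset.mem_filter]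
  refine ⟨Finset.mem_univ _, rfl, ⟨?_, ?_⟩, ?_⟩
  · simp
  · simp only
    rw [if_neg]
    intro h
    have := congrArg Fin.val h
    simp at this
    omega
  · intro s hs
    have hgn := hgt g.1 (by omega)
    simp only at hs ⊢
    have h2 : s.castSucc ≠ 0 := by
      intro h
      have := congrArg Fin.val h
      simp at this
      omega
    have h3 : s.succ ≠ 0 := Fin.succ_ne_zero s
    rw [if_neg h2, if_neg h3]

theorem immC_degS (hgt : ∀ g ≤ r, g * t < n) (ht : 0 < t) (q : Fin (r + 1) × Fin n × Fin n) :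
    (immC K n t r).degS q = blockDeg n t q.1.1 := by
  simp only [SPSPS.degS]
  have h2 : ∀ p ∈ (immC K n t r).inS q, (immC K n t r).degP p = blockDeg n t q.1.1 := by
    intro p hp
    have h1 : (immC K n t r).inS q = Finset.univ.filter (fun p => p.1 = q.1 ∧
      (p.2 0 = q.2.1 ∧ p.2 (Fin.last t) = q.2.2) ∧
      ∀ s : Fin t, n ≤ p.1.1 * t + s.1 → p.2 s.castSucc = p.2 s.succ) := rfl
    rw [h1, Finset.mem_filter] at hp
    rw [immC_degP, hp.2.1]
  rw [Finset.sup_congr rfl h2, Finset.sup_const (immC_inS_nonempty K n t r hgt ht q)]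

theorem immC_isHomogeneous (hgt : ∀ g ≤ r, g * t < n) (ht : 0 < t) :
    (immC K n t r).IsHomogeneous := by
  have hR : ∀ w, (immC K n t r).degR w = ∑ g : Fin (r + 1), blockDeg n t g.1 := by
    intro w
    simp only [SPSPS.degR]
    have h3 : (immC K n t r).inR w = (Finset.univ : Finset (Fin (r + 1))).val.map
      (fun g => (g, topPath n r w g.castSucc, topPath n r w g.succ)) := rfl
    rw [h3, Multiset.map_map, Finset.sum]
    congr 1
    apply Multiset.map_congr rfl
    intro g _
    exact immC_degS K n t r hgt ht _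
  refine ⟨?_, ?_, ?_⟩
  · intro b l _
    rw [immC_degB]
    rfl
  · intro q p hp
    rw [immC_degS K n t r hgt ht]
    have h1 : (immC K n t r).inS q = Finset.univ.filter (fun p => p.1 = q.1 ∧
      (p.2 0 = q.2.1 ∧ p.2 (Fin.last t) = q.2.2) ∧
      ∀ s : Fin t, n ≤ p.1.1 * t + s.1 → p.2 s.castSucc = p.2 s.succ) := rfl
    rw [h1, Finset.mem_filter] at hp
    rw [immC_degP, hp.2.1]
  · intro w _
    simp only [SPSPS.degOut]
    have h1 : (immC K n t r).inOut = Finset.univ := rfl
    rw [h1, Finset.sup_congr rfl (fun w _ => hR w), hR]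
    have : (Finset.univ : Finset (Fin r → Fin n)).Nonempty := ⟨fun _ => 0, Finset.mem_univ _⟩
    rw [Finset.sup_const this]

end circuit

end Crest.Agent.Row327b
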